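import Mathlib

/-!
# P146: limit points of a sequence of laws on `ℝ` with controlled exponential moments

`m k` are probability measures on `ℝ` with `∫ exp (ξ y) dm_k ≤ B ξ` for all large `k`, for every
`ξ`. Then the sequence is relatively compact, the integrals of functions of at most exponential
growth converge along convergent subsequences, and two-sided bounds of the exponential moments pass
to the limit. If `exp (c ξ^6) ≤ ∫ exp (ξ y) dm_k ≤ exp (C ξ^6)` for large `ξ`, then no limit point is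
Gaussian, and all limit points have `-log P(Y ≥ t)` of order `t^(6/5)`.
-/

open MeasureTheory ProbabilityTheory Filter Topology

namespace Vale.Agent.P146.H509

/-- Controlled exponential moments. -/
def ExpB (B : ℝ → ℝ) (m : ℕ → ProbabilityMeasure ℝ) : Prop :=
  ∀ ξ : ℝ, ∀ᶠ k in atTop, Integrable (fun y => Real.exp (ξ * y)) (m k : Measure ℝ) ∧
    ∫ y, Real.exp (ξ * y) ∂(m k : Measure ℝ) ≤ B ξ

lemma ExpB.comp {B : ℝ → ℝ} {m : ℕ → ProbabilityMeasure ℝ} (h : ExpB B m) {φ : ℕ → ℕ}
    (hφ : Tendsto φ atTop atTop) : ExpB B (m ∘ φ) := fun ξ => hφ.eventually (h ξ)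

variable {B : ℝ → ℝ} {m : ℕ → ProbabilityMeasure ℝ} {ν : ProbabilityMeasure ℝ}

/-- truncation from above of a nonnegative continuous function -/
noncomputable def trb (f : ℝ → ℝ) (hf : Continuous f) (L : ℝ) (hL : 0 ≤ L) :
    BoundedContinuousFunction ℝ ℝ :=
  BoundedContinuousFunction.ofNormedAddCommGroup (fun y => max (-L) (min (f y) L))
    (continuous_const.max (hf.min continuous_const)) L (fun y => by
      rw [Real.norm_eq_abs, abs_le]
      exact ⟨le_max_left _ _, max_le (by linarith) (min_le_right _ _)⟩)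

@[simp] lemma trb_apply (f : ℝ → ℝ) (hf : Continuous f) (L : ℝ) (hL : 0 ≤ L) (y : ℝ) :
    trb f hf L hL y = max (-L) (min (f y) L) := rfl

/-- the error of the truncation -/
lemma trb_err {a L : ℝ} (hL : 0 < L) : |a - max (-L) (min a L)| ≤ a ^ 2 / L := by
  rw [le_div_iff₀ hL]
  rcases le_total a L with h | h
  · rw [min_eq_left h]
    rcases le_total (-L) a with h2 | h2
    · rw [max_eq_right h2, sub_self, abs_zero, zero_mul]
      positivity
    · rw [max_eq_left h2, abs_of_nonpos (by linarith)]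
      nlinarith
  · rw [min_eq_right h, max_eq_right (by linarith), abs_of_nonneg (by linarith)]
    nlinarith

/-- exponential moments of a limit point: integrability -/
theorem exp_lim (hB : ExpB B m) (h : Tendsto m atTop (𝓝 ν)) (ξ : ℝ) :
    Integrable (fun y => Real.exp (ξ * y)) (ν : Measure ℝ) ∧
      ∫ y, Real.exp (ξ * y) ∂(ν : Measure ℝ) ≤ B ξ := by
  have hc : Continuous fun y : ℝ => Real.exp (ξ * y) := by fun_prop
  have hB0 : 0 ≤ B ξ := by
    obtain ⟨k, -, hk⟩ := (hB ξ).exists
    exact (integral_nonneg fun y => (Real.exp_pos _).le).trans hk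
  -- the truncated integrals
  have key : ∀ L : ℕ, ∫⁻ y, ENNReal.ofReal (min (Real.exp (ξ * y)) L) ∂(ν : Measure ℝ) ≤
      ENNReal.ofReal (B ξ) := by
    intro L
    have hL : (0 : ℝ) ≤ L := Nat.cast_nonneg L
    have h1 := (ProbabilityMeasure.tendsto_iff_forall_integral_tendsto.1 h) (trb _ hc L hL)
    have e : ∀ y : ℝ, trb (fun y : ℝ => Real.exp (ξ * y)) hc L hL y = min (Real.exp (ξ * y)) L := by
      intro y
      rw [trb_apply, max_eq_right]
      exact le_min (by linarith [Real.exp_pos (ξ * y)]) (by linarith)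
    simp only [e] at h1
    have h2 : ∫ y, min (Real.exp (ξ * y)) (L : ℝ) ∂(ν : Measure ℝ) ≤ B ξ := by
      refine le_of_tendsto h1 ((hB ξ).mono fun k hk => le_trans ?_ hk.2)
      refine integral_mono_of_nonneg (Eventually.of_forall fun y => ?_) hk.1
        (Eventually.of_forall fun y => min_le_left _ _)
      exact le_min (Real.exp_pos _).le hL
    have h3 : Integrable (fun y => min (Real.exp (ξ * y)) (L : ℝ)) (ν : Measure ℝ) := by
      have := (trb _ hc L hL).integrable (ν : Measure ℝ)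
      refine this.congr (Eventually.of_forall fun y => e y)
    rw [← ofReal_integral_eq_lintegral_ofReal h3
      (Eventually.of_forall fun y => le_min (Real.exp_pos _).le hL)]
    exact ENNReal.ofReal_le_ofReal h2
  have hmono : ∫⁻ y, ENNReal.ofReal (Real.exp (ξ * y)) ∂(ν : Measure ℝ) ≤ ENNReal.ofReal (B ξ) := by
    have hlim : ∫⁻ y, ENNReal.ofReal (Real.exp (ξ * y)) ∂(ν : Measure ℝ) =
        ⨆ L : ℕ, ∫⁻ y, ENNReal.ofReal (min (Real.exp (ξ * y)) L) ∂(ν : Measure ℝ) := by
      rw [← lintegral_iSup]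
      · congr 1
        funext y
        apply le_antisymm
        · obtain ⟨L, hL⟩ := exists_nat_ge (Real.exp (ξ * y))
          refine le_trans ?_ (le_iSup _ L)
          rw [min_eq_left hL]
        · exact iSup_le fun L => ENNReal.ofReal_le_ofReal (min_le_left _ _)
      · intro L
        exact (hc.min continuous_const).measurable.ennreal_ofReal
      · intro L L' hLL y
        exact ENNReal.ofReal_le_ofReal (min_le_min le_rfl (by exact_mod_cast hLL))
    rw [hlim]
    exact iSup_le key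
  have hint : Integrable (fun y => Real.exp (ξ * y)) (ν : Measure ℝ) := by
    refine ⟨hc.aestronglyMeasurable, ?_⟩
    rw [hasFiniteIntegral_iff_ofReal (Eventually.of_forall fun y => (Real.exp_pos _).le)]
    exact hmono.trans_lt ENNReal.ofReal_lt_top
  refine ⟨hint, ?_⟩
  rw [← ofReal_integral_eq_lintegral_ofReal hint
    (Eventually.of_forall fun y => (Real.exp_pos _).le)] at hmono
  exact (ENNReal.ofReal_le_ofReal_iff hB0).1 hmono

/-- the square of a function of exponential growth -/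
lemma sq_growth {f : ℝ → ℝ} {A a : ℝ}
    (hA : ∀ y, |f y| ≤ A * (Real.exp (a * y) + Real.exp (-a * y))) (y : ℝ) :
    f y ^ 2 ≤ 2 * A ^ 2 * (Real.exp ((2 * a) * y) + Real.exp (-(2 * a) * y)) := by
  have h1 := hA y
  have h2 : f y ^ 2 ≤ (A * (Real.exp (a * y) + Real.exp (-a * y))) ^ 2 := by
    rw [← sq_abs (f y)]
    exact pow_le_pow_left₀ (abs_nonneg _) h1 2
  have e1 : Real.exp ((2 * a) * y) = Real.exp (a * y) ^ 2 := by
    rw [← Real.exp_nat_mul]
    congr 1
    push_cast
    ring
  have e2 : Real.exp (-(2 * a) * y) = Real.exp (-a * y) ^ 2 := by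
    rw [← Real.exp_nat_mul]
    congr 1
    push_cast
    ring
  rw [e1, e2]
  have h3 : (Real.exp (a * y) + Real.exp (-a * y)) ^ 2 ≤
      2 * (Real.exp (a * y) ^ 2 + Real.exp (-a * y) ^ 2) := by
    nlinarith [sq_nonneg (Real.exp (a * y) - Real.exp (-a * y))]
  calc f y ^ 2 ≤ A ^ 2 * (Real.exp (a * y) + Real.exp (-a * y)) ^ 2 := by
        rw [← mul_pow]
        exact h2
    _ ≤ A ^ 2 * (2 * (Real.exp (a * y) ^ 2 + Real.exp (-a * y) ^ 2)) :=
        mul_le_mul_of_nonneg_left h3 (sq_nonneg A)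
    _ = _ := by ring

/-- a function of exponential growth is integrable and its truncation error is small -/
lemma trunc {μ : Measure ℝ} [IsProbabilityMeasure μ] {f : ℝ → ℝ} (hf : Continuous f) {A a : ℝ}
    (hA : ∀ y, |f y| ≤ A * (Real.exp (a * y) + Real.exp (-a * y))) {L : ℝ} (hL : 0 < L)
    (h1 : Integrable (fun y => Real.exp ((2 * a) * y)) μ)
    (h2 : Integrable (fun y => Real.exp (-(2 * a) * y)) μ) :
    Integrable f μ ∧ |∫ y, f y ∂μ - ∫ y, trb f hf L hL.le y ∂μ| ≤
      2 * A ^ 2 * (∫ y, Real.exp ((2 * a) * y) ∂μ + ∫ y, Real.exp (-(2 * a) * y) ∂μ) / L := by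
  have hb : Integrable (fun y => trb f hf L hL.le y) μ := (trb f hf L hL.le).integrable μ
  have hg : Integrable (fun y => 2 * A ^ 2 * (Real.exp ((2 * a) * y) +
      Real.exp (-(2 * a) * y)) / L) μ := ((h1.add h2).const_mul _).div_const _
  have hd : ∀ y, |f y - trb f hf L hL.le y| ≤ 2 * A ^ 2 * (Real.exp ((2 * a) * y) +
      Real.exp (-(2 * a) * y)) / L := fun y =>
    (trb_err hL).trans (div_le_div_of_nonneg_right (sq_growth hA y) hL.le)
  have hdi : Integrable (fun y => f y - trb f hf L hL.le y) μ := by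
    refine hg.mono' ?_ (Eventually.of_forall fun y => ?_)
    · exact (hf.sub (trb f hf L hL.le).continuous).aestronglyMeasurable
    · rw [Real.norm_eq_abs]
      exact hd y
  have hfi : Integrable f μ := by
    have := hdi.add hb
    refine this.congr (Eventually.of_forall fun y => ?_)
    simp
  refine ⟨hfi, ?_⟩
  rw [← integral_sub hfi hb]
  calc |∫ y, (f y - trb f hf L hL.le y) ∂μ| ≤ ∫ y, |f y - trb f hf L hL.le y| ∂μ :=
        abs_integral_le_integral_abs
    _ ≤ ∫ y, 2 * A ^ 2 * (Real.exp ((2 * a) * y) + Real.exp (-(2 * a) * y)) / L ∂μ :=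
        integral_mono hdi.abs hg hd
    _ = _ := by
        rw [integral_div, integral_const_mul, integral_add h1 h2]

/-- **Integrals of functions of exponential growth converge.** -/
theorem int_lim (hB : ExpB B m) (h : Tendsto m atTop (𝓝 ν)) {f : ℝ → ℝ} (hf : Continuous f)
    {A a : ℝ} (hA : ∀ y, |f y| ≤ A * (Real.exp (a * y) + Real.exp (-a * y))) :
    Integrable f (ν : Measure ℝ) ∧
    Tendsto (fun k => ∫ y, f y ∂(m k : Measure ℝ)) atTop (𝓝 (∫ y, f y ∂(ν : Measure ℝ))) := by
  obtain ⟨i1, b1⟩ := exp_lim hB h (2 * a)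
  obtain ⟨i2, b2⟩ := exp_lim hB h (-(2 * a))
  refine ⟨(trunc hf hA one_pos i1 i2).1, ?_⟩
  rw [Metric.tendsto_atTop']
  intro ε hε
  set K := 2 * A ^ 2 * (B (2 * a) + B (-(2 * a))) with hK
  have hB1 : 0 ≤ B (2 * a) := (integral_nonneg fun y => (Real.exp_pos _).le).trans b1
  have hB2 : 0 ≤ B (-(2 * a)) := (integral_nonneg fun y => (Real.exp_pos _).le).trans b2
  have hK0 : 0 ≤ K := by positivity
  set L := 4 * K / ε + 1 with hLd
  have hL : 0 < L := by positivity
  have hKL : K / L ≤ ε / 4 := by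
    rw [div_le_iff₀ hL, hLd]
    have : ε / 4 * (4 * K / ε + 1) = K + ε / 4 := by field_simp
    rw [this]
    linarith
  have h1 := (ProbabilityMeasure.tendsto_iff_forall_integral_tendsto.1 h) (trb f hf L hL.le)
  rw [Metric.tendsto_atTop'] at h1
  obtain ⟨N1, hN1⟩ := h1 (ε / 4) (by positivity)
  obtain ⟨N2, hN2⟩ := eventually_atTop.1 ((hB (2 * a)).and (hB (-(2 * a))))
  refine ⟨max N1 N2, fun k hk => ?_⟩
  have hk1 : N1 < k := (le_max_left _ _).trans_lt hk
  have hk2 : N2 ≤ k := ((le_max_right _ _).trans_lt hk).le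
  obtain ⟨⟨j1, c1⟩, ⟨j2, c2⟩⟩ := hN2 k hk2
  have t1 := (trunc hf hA hL j1 j2).2
  have t2 := (trunc hf hA hL i1 i2).2
  have t3 := hN1 k hk1
  rw [Real.dist_eq] at t3 ⊢
  have s1 : 2 * A ^ 2 * (∫ y, Real.exp ((2 * a) * y) ∂(m k : Measure ℝ) +
      ∫ y, Real.exp (-(2 * a) * y) ∂(m k : Measure ℝ)) / L ≤ ε / 4 := by
    refine le_trans ?_ hKL
    refine div_le_div_of_nonneg_right ?_ hL.le
    exact mul_le_mul_of_nonneg_left (add_le_add c1 c2) (by positivity)
  have s2 : 2 * A ^ 2 * (∫ y, Real.exp ((2 * a) * y) ∂(ν : Measure ℝ) +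
      ∫ y, Real.exp (-(2 * a) * y) ∂(ν : Measure ℝ)) / L ≤ ε / 4 := by
    refine le_trans ?_ hKL
    refine div_le_div_of_nonneg_right ?_ hL.le
    exact mul_le_mul_of_nonneg_left (add_le_add b1 b2) (by positivity)
  have t1' := t1.trans s1
  have t2' := t2.trans s2
  rw [abs_le] at t1' t2'
  rw [abs_lt] at t3 ⊢
  constructor <;> linarith [t1'.1, t1'.2, t2'.1, t2'.2, t3.1, t3.2]

/-- the exponential moments converge -/
theorem exp_tendsto (hB : ExpB B m) (h : Tendsto m atTop (𝓝 ν)) (ξ : ℝ) :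
    Tendsto (fun k => ∫ y, Real.exp (ξ * y) ∂(m k : Measure ℝ)) atTop
      (𝓝 (∫ y, Real.exp (ξ * y) ∂(ν : Measure ℝ))) := by
  refine (int_lim hB h (f := fun y => Real.exp (ξ * y)) (by fun_prop) (A := 1) (a := ξ)
    fun y => ?_).2
  rw [abs_of_pos (Real.exp_pos _), one_mul]
  linarith [Real.exp_pos (-ξ * y)]

/-- the moments converge -/
theorem pow_tendsto (hB : ExpB B m) (h : Tendsto m atTop (𝓝 ν)) (p : ℕ) :
    Integrable (fun y => y ^ p) (ν : Measure ℝ) ∧
    Tendsto (fun k => ∫ y, y ^ p ∂(m k : Measure ℝ)) atTop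
      (𝓝 (∫ y, y ^ p ∂(ν : Measure ℝ))) := by
  refine int_lim hB h (f := fun y => y ^ p) (by fun_prop) (A := p.factorial) (a := 1)
    fun y => ?_
  rw [abs_pow, one_mul]
  have h1 : |y| ^ p ≤ p.factorial * Real.exp |y| := by
    have := Real.pow_div_factorial_le_exp |y| (abs_nonneg y) p
    rw [div_le_iff₀ (by positivity)] at this
    linarith
  refine h1.trans (mul_le_mul_of_nonneg_left ?_ (by positivity))
  rcases le_total 0 y with hy | hy
  · rw [abs_of_nonneg hy]
    linarith [Real.exp_pos (-1 * y)]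
  · rw [abs_of_nonpos hy, neg_one_mul]
    linarith [Real.exp_pos y]

/-- **Relative compactness.** -/
theorem exists_limit (hB : ExpB B m) : ∃ φ : ℕ → ℕ, StrictMono φ ∧ ∃ ν : ProbabilityMeasure ℝ,
    Tendsto (m ∘ φ) atTop (𝓝 ν) := by
  obtain ⟨N, hN⟩ := eventually_atTop.1 ((hB 1).and (hB (-1)))
  set K := B 1 + B (-1) with hK
  -- the shifted sequence is tight
  have htail : ∀ k, N ≤ k → ∀ r : ℝ, (m k : Measure ℝ) {y | r < ‖y‖} ≤
      ENNReal.ofReal (K * Real.exp (-r)) := by
    intro k hk r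
    obtain ⟨⟨i1, b1⟩, ⟨i2, b2⟩⟩ := hN k hk
    have h1 : Real.exp r * ((m k : Measure ℝ)).real {y | r < ‖y‖} ≤ K := by
      have h2 : Integrable (fun y => Real.exp (1 * y) + Real.exp (-1 * y)) (m k : Measure ℝ) :=
        i1.add i2
      have h3 := mul_meas_ge_le_integral_of_nonneg
        (Eventually.of_forall fun y => by positivity) h2 (Real.exp r)
      rw [integral_add i1 i2] at h3
      refine le_trans (mul_le_mul_of_nonneg_left (measureReal_mono fun y hy => ?_)
        (Real.exp_pos r).le) (h3.trans (add_le_add b1 b2))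
      have hy' : r < |y| := hy
      change Real.exp r ≤ Real.exp (1 * y) + Real.exp (-1 * y)
      rcases le_total 0 y with h0 | h0
      · rw [abs_of_nonneg h0] at hy'
        have : Real.exp r ≤ Real.exp (1 * y) := Real.exp_le_exp.2 (by linarith)
        linarith [Real.exp_pos (-1 * y)]
      · rw [abs_of_nonpos h0] at hy'
        have : Real.exp r ≤ Real.exp (-1 * y) := Real.exp_le_exp.2 (by linarith)
        linarith [Real.exp_pos (1 * y)]
    have h2 : ((m k : Measure ℝ)).real {y | r < ‖y‖} ≤ K * Real.exp (-r) := by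
      rw [Real.exp_neg, ← div_eq_mul_inv, le_div_iff₀ (Real.exp_pos r), mul_comm]
      exact h1
    rw [← ofReal_measureReal]
    exact ENNReal.ofReal_le_ofReal h2
  set S : Set (ProbabilityMeasure ℝ) := Set.range fun k => m (k + N) with hS
  have ht : IsTightMeasureSet {((μ : ProbabilityMeasure ℝ) : Measure ℝ) | μ ∈ S} := by
    refine isTightMeasureSet_of_tendsto_measure_norm_gt ?_
    have h0 : Tendsto (fun r : ℝ => ENNReal.ofReal (K * Real.exp (-r))) atTop (𝓝 0) := by
      have h1 : Tendsto (fun r : ℝ => K * Real.exp (-r)) atTop (𝓝 (K * 0)) :=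
        (Real.tendsto_exp_neg_atTop_nhds_zero).const_mul K
      rw [mul_zero] at h1
      have := (ENNReal.continuous_ofReal.tendsto 0).comp h1
      rwa [ENNReal.ofReal_zero] at this
    refine tendsto_of_tendsto_of_tendsto_of_le_of_le tendsto_const_nhds h0 (fun _ => zero_le)
      fun r => ?_
    refine iSup₂_le fun μ hμ => ?_
    obtain ⟨μ', ⟨k, rfl⟩, rfl⟩ := hμ
    exact htail (k + N) (Nat.le_add_left _ _) r
  have hcomp := isCompact_closure_of_isTightMeasureSet ht
  obtain ⟨ν, -, φ, hφ, hlim⟩ := hcomp.tendsto_subseq (x := fun k => m (k + N))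
    fun k => subset_closure ⟨k, rfl⟩
  refine ⟨fun k => φ k + N, fun a b hab => Nat.add_lt_add_right (hφ hab) N, ν, hlim⟩

end Vale.Agent.P146.H509
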