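import Vale.Agent.P146.H509.Law

/-!
# P146: limit laws with exponential moments of order `exp (ξ^6)`

Tails `exp (- t^(6/5))`, no Gaussian limit.
-/

open MeasureTheory ProbabilityTheory Filter Topology

namespace Vale.Agent.P146.H509

/-- exponential moments of order `exp (ξ^6)` -/
structure Six (c C ξ₀ : ℝ) (μ : Measure ℝ) : Prop where
  int : ∀ ξ : ℝ, Integrable (fun y => Real.exp (ξ * y)) μ
  lo : ∀ ξ : ℝ, ξ₀ ≤ ξ → Real.exp (c * ξ ^ 6) ≤ ∫ y, Real.exp (ξ * y) ∂μ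
  up : ∀ ξ : ℝ, ξ₀ ≤ ξ → ∫ y, Real.exp (ξ * y) ∂μ ≤ Real.exp (C * ξ ^ 6)

/-- **No such law is Gaussian.** -/
theorem Six.not_gaussian {c C ξ₀ : ℝ} {μ : Measure ℝ} (h : Six c C ξ₀ μ) (hc : 0 < c) (a : ℝ)
    (v : NNReal) : μ ≠ gaussianReal a v := by
  rintro rfl
  -- take `ξ` large
  obtain ⟨ξ, hξ⟩ : ∃ ξ : ℝ, max ξ₀ (max 1 ((|a| + v + 1) / c)) ≤ ξ := ⟨_, le_rfl⟩
  have h0 : ξ₀ ≤ ξ := (le_max_left _ _).trans hξ
  have h1 : 1 ≤ ξ := (le_max_left _ _).trans ((le_max_right _ _).trans hξ)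
  have h2 : (|a| + v + 1) / c ≤ ξ := (le_max_right _ _).trans ((le_max_right _ _).trans hξ)
  have h3 := h.lo ξ h0
  have h4 : ∫ y, Real.exp (ξ * y) ∂(gaussianReal a v) = Real.exp (a * ξ + v * ξ ^ 2 / 2) := by
    have := congrFun (mgf_id_gaussianReal (μ := a) (v := v)) ξ
    rw [← this]
    rfl
  rw [h4, Real.exp_le_exp] at h3
  have hv : (0 : ℝ) ≤ v := v.2
  rw [div_le_iff₀ hc] at h2
  have p1 : a * ξ ≤ |a| * ξ ^ 2 := by
    have e1 : a * ξ ≤ |a| * ξ := mul_le_mul_of_nonneg_right (le_abs_self a) (by linarith)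
    have e2 : |a| * ξ ≤ |a| * ξ ^ 2 :=
      mul_le_mul_of_nonneg_left (le_self_pow₀ h1 (by norm_num)) (abs_nonneg a)
    linarith
  have p2 : v * ξ ^ 2 / 2 ≤ v * ξ ^ 2 := by
    have : 0 ≤ (v : ℝ) * ξ ^ 2 := by positivity
    linarith
  have p3 : c * ξ ^ 3 ≤ c * ξ ^ 6 :=
    mul_le_mul_of_nonneg_left (pow_le_pow_right₀ h1 (by norm_num)) hc.le
  have p4 : (|a| + v + 1) * ξ ^ 2 ≤ ξ * c * ξ ^ 2 :=
    mul_le_mul_of_nonneg_right h2 (by positivity)
  have p5 : 0 < ξ ^ 2 := by positivity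
  nlinarith

/-- Chernoff -/
lemma chernoff {μ : Measure ℝ} [IsProbabilityMeasure μ] {ξ t : ℝ} (hξ : 0 ≤ ξ)
    (hi : Integrable (fun y => Real.exp (ξ * y)) μ) :
    μ.real (Set.Ici t) ≤ Real.exp (-(ξ * t)) * ∫ y, Real.exp (ξ * y) ∂μ := by
  have h1 := mul_meas_ge_le_integral_of_nonneg
    (Eventually.of_forall fun y => (Real.exp_pos _).le) hi (Real.exp (ξ * t))
  have h2 : μ.real (Set.Ici t) ≤ μ.real {y | Real.exp (ξ * t) ≤ Real.exp (ξ * y)} :=
    measureReal_mono fun y hy => Real.exp_le_exp.2 (mul_le_mul_of_nonneg_left hy hξ)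
  have h3 : Real.exp (ξ * t) * μ.real (Set.Ici t) ≤ ∫ y, Real.exp (ξ * y) ∂μ :=
    (mul_le_mul_of_nonneg_left h2 (Real.exp_pos _).le).trans h1
  rw [Real.exp_neg, inv_mul_eq_div, le_div_iff₀ (Real.exp_pos _), mul_comm]
  exact h3

/-- the converse of Chernoff -/
lemma anti_chernoff {μ : Measure ℝ} [IsProbabilityMeasure μ] {ξ t l : ℝ} (hξ : 0 ≤ ξ)
    (hl : 0 < l) (hi : Integrable (fun y => Real.exp (ξ * y)) μ)
    (hi2 : Integrable (fun y => Real.exp ((2 * ξ) * y)) μ) :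
    ∫ y, Real.exp (ξ * y) ∂μ - Real.exp (ξ * t) ≤
      l / 2 * ∫ y, Real.exp ((2 * ξ) * y) ∂μ + 1 / (2 * l) * μ.real (Set.Ici t) := by
  have hS : MeasurableSet (Set.Ici t : Set ℝ) := measurableSet_Ici
  have hI : Integrable (Set.indicator (Set.Ici t) fun _ : ℝ => (1 : ℝ)) μ :=
    (integrable_const 1).indicator hS
  have h1 : ∀ y : ℝ, Real.exp (ξ * y) - Real.exp (ξ * t) ≤
      l / 2 * Real.exp ((2 * ξ) * y) + 1 / (2 * l) * Set.indicator (Set.Ici t) (fun _ => (1 : ℝ)) y := by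
    intro y
    have e1 : Real.exp ((2 * ξ) * y) = Real.exp (ξ * y) ^ 2 := by
      rw [← Real.exp_nat_mul]
      congr 1
      push_cast
      ring
    rw [e1]
    have p := Real.exp_pos (ξ * y)
    have pt := Real.exp_pos (ξ * t)
    by_cases hy : y ∈ Set.Ici t
    · rw [Set.indicator_of_mem hy, mul_one]
      have h2 : Real.exp (ξ * y) ≤ l / 2 * Real.exp (ξ * y) ^ 2 + 1 / (2 * l) := by
        have h3 : 0 ≤ (l * Real.exp (ξ * y) - 1) ^ 2 / (2 * l) := by positivity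
        have e : (l * Real.exp (ξ * y) - 1) ^ 2 / (2 * l) =
            l / 2 * Real.exp (ξ * y) ^ 2 + 1 / (2 * l) - Real.exp (ξ * y) := by
          field_simp
          ring
        linarith
      linarith
    · rw [Set.indicator_of_notMem hy, mul_zero, add_zero]
      have h2 : y < t := not_le.1 hy
      have h3 : Real.exp (ξ * y) ≤ Real.exp (ξ * t) :=
        Real.exp_le_exp.2 (mul_le_mul_of_nonneg_left h2.le hξ)
      have : 0 ≤ l / 2 * Real.exp (ξ * y) ^ 2 := by positivity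
      linarith
  have h2 := integral_mono (hi.sub (integrable_const (Real.exp (ξ * t))))
    ((hi2.const_mul (l / 2)).add (hI.const_mul (1 / (2 * l)))) h1
  simp only [Pi.add_apply, Pi.sub_apply] at h2
  rw [integral_sub hi (integrable_const _), integral_add (hi2.const_mul _) (hI.const_mul _),
    integral_const_mul, integral_const_mul, integral_indicator_const _ hS] at h2
  simpa using h2

/-- **The tails.** -/
theorem Six.tails {c C ξ₀ : ℝ} (hc : 0 < c) (hC : 0 < C) : ∃ c' C' t₀ : ℝ,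
    0 < c' ∧ 0 < C' ∧ 0 < t₀ ∧ ∀ (μ : Measure ℝ) [IsProbabilityMeasure μ], Six c C ξ₀ μ →
    ∀ t : ℝ, t₀ ≤ t → Real.exp (-(C' * t ^ (6 / 5 : ℝ))) ≤ μ.real (Set.Ici t) ∧
      μ.real (Set.Ici t) ≤ Real.exp (-(c' * t ^ (6 / 5 : ℝ))) := by
  set q : ℝ := 1 / 5 with hq
  obtain ⟨x1, hx1⟩ : ∃ x1 : ℝ, x1 = max ξ₀ (max 1 (2 / c)) := ⟨_, rfl⟩
  have hx0 : ξ₀ ≤ x1 := by rw [hx1]; exact le_max_left _ _
  have hx11 : 1 ≤ x1 := by rw [hx1]; exact (le_max_left _ _).trans (le_max_right _ _)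
  have hx12 : 2 / c ≤ x1 := by rw [hx1]; exact (le_max_right _ _).trans (le_max_right _ _)
  -- the two choices of `ξ`
  have hpow : ∀ A t : ℝ, 0 < A → 0 < t → ((A * t) ^ q) ^ 5 = A * t := by
    intro A t hA ht
    rw [← Real.rpow_natCast, ← Real.rpow_mul (by positivity), hq]
    norm_num
  have hbig : ∀ A t : ℝ, 0 < A → 0 < t → x1 ^ 5 ≤ A * t → x1 ≤ (A * t) ^ q := by
    intro A t hA ht h
    have h1 := hpow A t hA ht
    rw [← h1] at h
    exact (pow_le_pow_iff_left₀ (by linarith) (Real.rpow_nonneg (by positivity) _)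
      (by norm_num)).1 h
  have hsix : ∀ A t : ℝ, 0 < A → 0 < t → (A * t) ^ q * t = A ^ q * t ^ (6 / 5 : ℝ) := by
    intro A t hA ht
    rw [Real.mul_rpow hA.le ht.le, mul_assoc]
    congr 1
    nth_rewrite 2 [← Real.rpow_one t]
    rw [← Real.rpow_add ht, hq]
    norm_num
  have hA1 : (0 : ℝ) < 1 / (2 * C) := by positivity
  have hA2 : (0 : ℝ) < 2 / c := by positivity
  have p1 : 0 < (1 / (2 * C)) ^ q := Real.rpow_pos_of_pos hA1 _
  have p2 : 0 < (2 / c) ^ q := Real.rpow_pos_of_pos hA2 _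
  have px : 0 < x1 ^ 5 := by positivity
  refine ⟨1 / 2 * (1 / (2 * C)) ^ q, 64 * C * ((2 / c) * (2 / c) ^ q),
    max (2 * C * x1 ^ 5) (c / 2 * x1 ^ 5), by positivity, by positivity,
    lt_max_of_lt_left (by positivity), fun μ _ h t ht => ?_⟩
  have ht1 : 2 * C * x1 ^ 5 ≤ t := (le_max_left _ _).trans ht
  have ht2 : c / 2 * x1 ^ 5 ≤ t := (le_max_right _ _).trans ht
  have ht0 : 0 < t := lt_of_lt_of_le (by positivity) ht1
  constructor
  · -- lower bound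
    obtain ⟨ξ, hξ⟩ : ∃ ξ : ℝ, ξ = (2 / c * t) ^ q := ⟨_, rfl⟩
    have hξ1 : x1 ≤ ξ := by
      rw [hξ]
      refine hbig _ _ hA2 ht0 ?_
      rw [div_mul_eq_mul_div, le_div_iff₀ hc]
      linarith
    have hξ5 : ξ ^ 5 = 2 / c * t := by rw [hξ]; exact hpow _ _ hA2 ht0
    have hξ1' : 1 ≤ ξ := hx11.trans hξ1
    have hξt : ξ * t = c * ξ ^ 6 / 2 := by
      have : ξ ^ 6 = ξ * ξ ^ 5 := by ring
      rw [this, hξ5]
      field_simp
    have hcξ : 2 ≤ c * ξ ^ 6 := by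
      have h1 : 2 / c ≤ ξ := hx12.trans hξ1
      rw [div_le_iff₀ hc] at h1
      have h2 : ξ ≤ ξ ^ 6 := le_self_pow₀ hξ1' (by norm_num)
      nlinarith
    obtain ⟨E, hE⟩ : ∃ E : ℝ, E = Real.exp (c * ξ ^ 6) := ⟨_, rfl⟩
    obtain ⟨R, hR⟩ : ∃ R : ℝ, R = Real.exp (C * (2 * ξ) ^ 6) := ⟨_, rfl⟩
    have hE0 : 0 < E := by rw [hE]; exact Real.exp_pos _
    have hR0 : 0 < R := by rw [hR]; exact Real.exp_pos _
    have hlo := h.lo ξ (hx0.trans hξ1)
    have hup := h.up (2 * ξ) (by linarith)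
    rw [← hE] at hlo
    rw [← hR] at hup
    have hexp1 : (2 : ℝ) ≤ Real.exp (c * ξ ^ 6 / 2) := by
      have := Real.add_one_le_exp (c * ξ ^ 6 / 2)
      linarith
    have hE2 : Real.exp (c * ξ ^ 6 / 2) ^ 2 = E := by
      rw [hE, ← Real.exp_nat_mul]
      congr 1
      push_cast
      ring
    have hhalf : Real.exp (ξ * t) ≤ E / 2 := by
      rw [hξt, ← hE2]
      nlinarith
    have hE4 : 4 ≤ E := by
      rw [← hE2]
      nlinarith
    have h1 := anti_chernoff (t := t) (show 0 ≤ ξ by linarith) (show 0 < E / (2 * R) by positivity)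
      (h.int ξ) (h.int (2 * ξ))
    have h2 : E / (2 * R) / 2 * ∫ y, Real.exp ((2 * ξ) * y) ∂μ ≤ E / 4 := by
      refine (mul_le_mul_of_nonneg_left hup (by positivity)).trans (le_of_eq ?_)
      field_simp
      norm_num
    have h3 : E / 4 ≤ 1 / (2 * (E / (2 * R))) * μ.real (Set.Ici t) := by linarith
    have h4 : 1 / R ≤ μ.real (Set.Ici t) := by
      have e : 1 / (2 * (E / (2 * R))) = R / E := by field_simp
      rw [e] at h3
      have h5 : E / 4 * E ≤ R * μ.real (Set.Ici t) := by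
        have := mul_le_mul_of_nonneg_right h3 hE0.le
        refine this.trans (le_of_eq ?_)
        field_simp
      rw [div_le_iff₀ hR0]
      nlinarith
    refine le_trans (le_of_eq ?_) h4
    rw [hR, one_div, ← Real.exp_neg]
    congr 2
    have e6 : (2 * ξ) ^ 6 = 64 * (ξ ^ 5 * ξ) := by ring
    rw [e6, hξ5, hξ]
    have := hsix (2 / c) t hA2 ht0
    calc 64 * C * (2 / c * (2 / c) ^ q) * t ^ (6 / 5 : ℝ) =
        64 * C * (2 / c) * ((2 / c) ^ q * t ^ (6 / 5 : ℝ)) := by ring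
      _ = 64 * C * (2 / c) * ((2 / c * t) ^ q * t) := by rw [this]
      _ = C * (64 * (2 / c * t * (2 / c * t) ^ q)) := by ring
  · -- upper bound
    obtain ⟨ξ, hξ⟩ : ∃ ξ : ℝ, ξ = (1 / (2 * C) * t) ^ q := ⟨_, rfl⟩
    have hξ1 : x1 ≤ ξ := by
      rw [hξ]
      refine hbig _ _ hA1 ht0 ?_
      rw [div_mul_eq_mul_div, one_mul, le_div_iff₀ (by positivity)]
      linarith
    have hξ5 : ξ ^ 5 = 1 / (2 * C) * t := by rw [hξ]; exact hpow _ _ hA1 ht0
    have hCξ : C * ξ ^ 6 = ξ * t / 2 := by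
      have : ξ ^ 6 = ξ * ξ ^ 5 := by ring
      rw [this, hξ5]
      field_simp
    have h1 := chernoff (t := t) (show 0 ≤ ξ by linarith) (h.int ξ)
    have h2 := h.up ξ (hx0.trans hξ1)
    refine h1.trans ((mul_le_mul_of_nonneg_left h2 (Real.exp_pos _).le).trans ?_)
    rw [← Real.exp_add, Real.exp_le_exp, hCξ]
    have := hsix (1 / (2 * C)) t hA1 ht0
    rw [hξ]
    have e : 1 / 2 * (1 / (2 * C)) ^ q * t ^ (6 / 5 : ℝ) =
        (1 / (2 * C) * t) ^ q * t / 2 := by rw [this]; ring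
    rw [e]
    linarith

end Vale.Agent.P146.H509
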