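import Vale.Agent.P146.H509.Law2

/-!
# P146: limit points, assembled
-/

open MeasureTheory ProbabilityTheory Filter Topology

namespace Vale.Agent.P146.H509

/-- Hypotheses on the sequence of laws: centred, variances in `[v, V]`, exponential moments of order
`exp (ξ^6)`; everything for all large indices, for every fixed `ξ`. -/
structure SeqSix (v V c C ξ₀ : ℝ) (B : ℝ → ℝ) (m : ℕ → ProbabilityMeasure ℝ) : Prop where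
  exp : ExpB B m
  mean : ∀ᶠ k in atTop, ∫ y, y ∂(m k : Measure ℝ) = 0
  var : ∀ᶠ k in atTop, v ≤ ∫ y, y ^ 2 ∂(m k : Measure ℝ) ∧ ∫ y, y ^ 2 ∂(m k : Measure ℝ) ≤ V
  lo : ∀ ξ : ℝ, ξ₀ ≤ ξ → ∀ᶠ k in atTop,
    Real.exp (c * ξ ^ 6) ≤ ∫ y, Real.exp (ξ * y) ∂(m k : Measure ℝ)
  up : ∀ ξ : ℝ, ξ₀ ≤ ξ → ∀ᶠ k in atTop,
    ∫ y, Real.exp (ξ * y) ∂(m k : Measure ℝ) ≤ Real.exp (C * ξ ^ 6)

variable {v V c C ξ₀ : ℝ} {B : ℝ → ℝ} {m : ℕ → ProbabilityMeasure ℝ} {ν : ProbabilityMeasure ℝ}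

lemma SeqSix.comp (h : SeqSix v V c C ξ₀ B m) {φ : ℕ → ℕ} (hφ : Tendsto φ atTop atTop) :
    SeqSix v V c C ξ₀ B (m ∘ φ) :=
  ⟨h.exp.comp hφ, hφ.eventually h.mean, hφ.eventually h.var, fun ξ hξ => hφ.eventually (h.lo ξ hξ),
    fun ξ hξ => hφ.eventually (h.up ξ hξ)⟩

/-- **The limit points.** -/
theorem SeqSix.limit (h : SeqSix v V c C ξ₀ B m) (hl : Tendsto m atTop (𝓝 ν)) :
    ∫ y, y ∂(ν : Measure ℝ) = 0 ∧ v ≤ ∫ y, y ^ 2 ∂(ν : Measure ℝ) ∧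
      ∫ y, y ^ 2 ∂(ν : Measure ℝ) ≤ V ∧ Six c C ξ₀ (ν : Measure ℝ) := by
  have h1 := (pow_tendsto h.exp hl 1).2
  have h2 := (pow_tendsto h.exp hl 2).2
  simp only [pow_one] at h1
  refine ⟨?_, ge_of_tendsto h2 (h.var.mono fun k hk => hk.1),
    le_of_tendsto h2 (h.var.mono fun k hk => hk.2), fun ξ => (exp_lim h.exp hl ξ).1,
    fun ξ hξ => ge_of_tendsto (exp_tendsto h.exp hl ξ) (h.lo ξ hξ),
    fun ξ hξ => le_of_tendsto (exp_tendsto h.exp hl ξ) (h.up ξ hξ)⟩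
  exact tendsto_nhds_unique h1 (tendsto_const_nhds.congr' (h.mean.mono fun k hk => hk.symm))

/-- **The law of the limit points.** Every subsequence has a convergent subsequence; every limit
point is centred, has variance in `[v, V]`, exponential moments and upper tail of the order given,
and is not Gaussian. -/
theorem SeqSix.main (h : SeqSix v V c C ξ₀ B m) (hc : 0 < c) (hC : 0 < C) :
    (∀ φ : ℕ → ℕ, StrictMono φ → ∃ ψ : ℕ → ℕ, StrictMono ψ ∧ ∃ ν : ProbabilityMeasure ℝ,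
      Tendsto (m ∘ φ ∘ ψ) atTop (𝓝 ν)) ∧
    ∃ c' C' t₀ : ℝ, 0 < c' ∧ 0 < C' ∧ 0 < t₀ ∧
      ∀ φ : ℕ → ℕ, Tendsto φ atTop atTop → ∀ ν : ProbabilityMeasure ℝ,
        Tendsto (m ∘ φ) atTop (𝓝 ν) →
        ∫ y, y ∂(ν : Measure ℝ) = 0 ∧ v ≤ ∫ y, y ^ 2 ∂(ν : Measure ℝ) ∧
        ∫ y, y ^ 2 ∂(ν : Measure ℝ) ≤ V ∧
        (∀ ξ : ℝ, ξ₀ ≤ ξ → Real.exp (c * ξ ^ 6) ≤ ∫ y, Real.exp (ξ * y) ∂(ν : Measure ℝ) ∧
          ∫ y, Real.exp (ξ * y) ∂(ν : Measure ℝ) ≤ Real.exp (C * ξ ^ 6)) ∧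
        (∀ t : ℝ, t₀ ≤ t → Real.exp (-(C' * t ^ (6 / 5 : ℝ))) ≤ (ν : Measure ℝ).real (Set.Ici t) ∧
          (ν : Measure ℝ).real (Set.Ici t) ≤ Real.exp (-(c' * t ^ (6 / 5 : ℝ)))) ∧
        ∀ (a : ℝ) (w : NNReal), (ν : Measure ℝ) ≠ gaussianReal a w := by
  refine ⟨fun φ hφ => ?_, ?_⟩
  · obtain ⟨ψ, hψ, ν, hν⟩ := exists_limit (h.comp hφ.tendsto_atTop).exp
    exact ⟨ψ, hψ, ν, hν⟩
  · obtain ⟨c', C', t₀, h1, h2, h3, ht⟩ := Six.tails (ξ₀ := ξ₀) hc hC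
    refine ⟨c', C', t₀, h1, h2, h3, fun φ hφ ν hν => ?_⟩
    obtain ⟨p1, p2, p3, p4⟩ := (h.comp hφ).limit hν
    exact ⟨p1, p2, p3, fun ξ hξ => ⟨p4.lo ξ hξ, p4.up ξ hξ⟩, ht _ p4, p4.not_gaussian hc⟩

end Vale.Agent.P146.H509
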