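import Vale.Agent.P146.H509.LawD

/-!
# P146: the limit points of `(F_n - E F_n) / n^(1/6)`, everything in one statement
-/

open MeasureTheory ProbabilityTheory Filter Topology

namespace Vale.Agent.P146.H509

open Vale.Agent.P157.Lv Vale.Agent.P146 Vale.Agent.P146.H425 Vale.Agent.P146.U
open Vale.Agent.P146.H196 (meanF sdF)

variable {β : ℝ}

lemma cube_lawY (n : ℕ) : ∫ y, y ^ 3 ∂(lawY β n : Measure ℝ) =
    (∫ g, (freeEnergy n β g - meanF n β) ^ 3 ∂(disorder n)) / ((n : ℝ) ^ (1 / 6 : ℝ)) ^ 3 := by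
  rw [int_lawY (f := fun y => y ^ 3) (by fun_prop)]
  unfold Yn
  simp only [div_pow]
  rw [integral_div]

/-- exponential moments of the law against the Gaussian law of the same variance -/
lemma gc_lawY (hG : GC β) {n : ℕ} (hn : 2 ≤ n) {ξ : ℝ} (hξ : 0 ≤ ξ) :
    ∫ y, Real.exp (-ξ * y) ∂(lawY β n : Measure ℝ) ≤
      Real.exp (ξ ^ 2 / 2 * ∫ y, y ^ 2 ∂(lawY β n : Measure ℝ)) ∧
    Real.exp (ξ ^ 2 / 2 * ∫ y, y ^ 2 ∂(lawY β n : Measure ℝ)) ≤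
      ∫ y, Real.exp (ξ * y) ∂(lawY β n : Measure ℝ) := by
  have hn1 : 1 ≤ n := by omega
  have hn0 : (0 : ℝ) < n := by exact_mod_cast hn1
  have hp : 0 < (n : ℝ) ^ (-(1 / 6) : ℝ) := Real.rpow_pos_of_pos hn0 _
  obtain ⟨x, hx⟩ : ∃ x, x = ξ * (n : ℝ) ^ (-(1 / 6) : ℝ) := ⟨_, rfl⟩
  have hx0 : 0 ≤ x := by rw [hx]; positivity
  obtain ⟨h1, h2⟩ := (hG n hn).1 x hx0
  have e : x ^ 2 / 2 * Var[freeEnergy n β; disorder n] =
      ξ ^ 2 / 2 * ∫ y, y ^ 2 ∂(lawY β n : Measure ℝ) := by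
    rw [var_lawY hn1, hx]
    have e3 : ((n : ℝ) ^ (-(1 / 6) : ℝ)) ^ 2 = ((n : ℝ) ^ (1 / 3 : ℝ))⁻¹ := by
      rw [← Real.rpow_natCast, ← Real.rpow_mul hn0.le, ← Real.rpow_neg hn0.le]
      norm_num
    rw [mul_pow, e3]
    field_simp
  rw [e] at h1 h2
  refine ⟨?_, ?_⟩
  · rw [(exp_lawY (β := β) hn1 (-ξ)).2]
    refine le_trans (le_of_eq ?_) h1
    refine integral_congr_ae (Eventually.of_forall fun g => ?_)
    simp only
    rw [hx]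
    congr 1
    ring
  · rw [(exp_lawY (β := β) hn1 ξ).2, ← hx]
    exact h2

/-- Chernoff bound on the left. -/
lemma left_of {μ : Measure ℝ} [IsProbabilityMeasure μ] {V : ℝ} (hV : 0 < V)
    (hi : ∀ ξ : ℝ, Integrable (fun y => Real.exp (ξ * y)) μ)
    (h : ∀ ξ : ℝ, 0 ≤ ξ → ∫ y, Real.exp (-ξ * y) ∂μ ≤ Real.exp (ξ ^ 2 / 2 * V)) {u : ℝ}
    (hu : 0 ≤ u) : μ.real (Set.Iic (-u)) ≤ Real.exp (-(u ^ 2 / (2 * V))) := by
  obtain ⟨ξ, hξ⟩ : ∃ ξ, ξ = u / V := ⟨_, rfl⟩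
  have hξ0 : 0 ≤ ξ := by rw [hξ]; positivity
  have h1 : Real.exp (ξ * u) * μ.real (Set.Iic (-u)) ≤ ∫ y, Real.exp (-ξ * y) ∂μ := by
    have h2 : ∫ y, (Set.Iic (-u)).indicator (fun _ => Real.exp (ξ * u)) y ∂μ ≤
        ∫ y, Real.exp (-ξ * y) ∂μ := by
      refine integral_mono ((integrable_const _).indicator measurableSet_Iic) (hi _) fun y => ?_
      by_cases hy : y ∈ Set.Iic (-u)
      · rw [Set.indicator_of_mem hy]
        refine Real.exp_le_exp.2 ?_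
        have : y ≤ -u := hy
        nlinarith
      · rw [Set.indicator_of_notMem hy]
        exact (Real.exp_pos _).le
    rw [integral_indicator_const _ measurableSet_Iic] at h2
    rw [mul_comm]
    simpa using h2
  have h3 := h1.trans (h ξ hξ0)
  have h4 : μ.real (Set.Iic (-u)) ≤ Real.exp (ξ ^ 2 / 2 * V - ξ * u) := by
    rw [Real.exp_sub, le_div_iff₀ (Real.exp_pos _), mul_comm]
    exact h3
  refine h4.trans (Real.exp_le_exp.2 (le_of_eq ?_))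
  rw [hξ]
  field_simp
  ring

/-- **The limit points of `(F_n - E F_n) / n^(1/6)`.** Every subsequence has a convergent
subsequence, and every limit point is centred, has a variance between two positive constants, a
nonnegative third moment and a bounded log-concave density, lies on the left below and on the right
above the Gaussian law of the same variance, has exponential moments of order `exp (ξ ^ 6)` and a
right tail of order `exp (- t ^ (6 / 5))`, and is not Gaussian. -/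
theorem law_all {D c K : ℝ} (hD : 0 < D) (hc : 0 < c) (hU : MgU β D) (hL : MgL β c K)
    (hG : GC β) (hLim : LimD β) :
    (∀ φ : ℕ → ℕ, StrictMono φ → ∃ ψ : ℕ → ℕ, StrictMono ψ ∧ ∃ ν : ProbabilityMeasure ℝ,
      Tendsto (lawY β ∘ φ ∘ ψ) atTop (𝓝 ν)) ∧
    ∃ c' C' t₀ : ℝ, 0 < c' ∧ 0 < C' ∧ 0 < t₀ ∧
      ∀ φ : ℕ → ℕ, Tendsto φ atTop atTop → ∀ ν : ProbabilityMeasure ℝ,
        Tendsto (lawY β ∘ φ) atTop (𝓝 ν) →
        ∫ y, y ∂(ν : Measure ℝ) = 0 ∧ c ≤ ∫ y, y ^ 2 ∂(ν : Measure ℝ) ∧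
        ∫ y, y ^ 2 ∂(ν : Measure ℝ) ≤ D ∧ 0 ≤ ∫ y, y ^ 3 ∂(ν : Measure ℝ) ∧
        (∃ p : ℝ → ℝ, (∀ x, 0 ≤ p x ∧ p x ≤ 145 / √c) ∧
          (∀ s t : ℝ, 0 < s → 0 < t → s + t = 1 → ∀ x y : ℝ,
            p x ^ s * p y ^ t ≤ p (s * x + t * y)) ∧
          (ν : Measure ℝ) = volume.withDensity fun x => ENNReal.ofReal (p x)) ∧
        (∀ ξ : ℝ, Integrable (fun y => Real.exp (ξ * y)) (ν : Measure ℝ)) ∧
        (∀ ξ : ℝ, 0 ≤ ξ →
          ∫ y, Real.exp (-ξ * y) ∂(ν : Measure ℝ) ≤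
            Real.exp (ξ ^ 2 / 2 * ∫ y, y ^ 2 ∂(ν : Measure ℝ)) ∧
          Real.exp (ξ ^ 2 / 2 * ∫ y, y ^ 2 ∂(ν : Measure ℝ)) ≤
            ∫ y, Real.exp (ξ * y) ∂(ν : Measure ℝ)) ∧
        (∀ u : ℝ, 0 ≤ u → (ν : Measure ℝ).real (Set.Iic (-u)) ≤
          Real.exp (-(u ^ 2 / (2 * ∫ y, y ^ 2 ∂(ν : Measure ℝ))))) ∧
        (∀ ξ : ℝ, max K 1 ≤ ξ →
          Real.exp (c * ξ ^ 6) ≤ ∫ y, Real.exp (ξ * y) ∂(ν : Measure ℝ) ∧
          ∫ y, Real.exp (ξ * y) ∂(ν : Measure ℝ) ≤ Real.exp (D * ξ ^ 6)) ∧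
        (∀ t : ℝ, t₀ ≤ t → Real.exp (-(C' * t ^ (6 / 5 : ℝ))) ≤ (ν : Measure ℝ).real (Set.Ici t) ∧
          (ν : Measure ℝ).real (Set.Ici t) ≤ Real.exp (-(c' * t ^ (6 / 5 : ℝ)))) ∧
        ∀ (a : ℝ) (w : NNReal), (ν : Measure ℝ) ≠ gaussianReal a w := by
  obtain ⟨h1, c', C', t₀, hc', hC', ht₀, H⟩ := law_final hD hc hU hL
  refine ⟨h1, c', C', t₀, hc', hC', ht₀, fun φ hφ ν hν => ?_⟩
  obtain ⟨p1, p2, p3, p4, p5, p6⟩ := H φ hφ ν hν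
  have hB := (seqSix hD hU hL).exp.comp hφ
  have hi : ∀ ξ : ℝ, Integrable (fun y => Real.exp (ξ * y)) (ν : Measure ℝ) := fun ξ =>
    (exp_lim hB hν ξ).1
  have hV : ∀ᶠ n : ℕ in atTop, c * (n : ℝ) ^ (1 / 3 : ℝ) ≤ Var[freeEnergy n β; disorder n] ∧
      Var[freeEnergy n β; disorder n] ≤ D * (n : ℝ) ^ (1 / 3 : ℝ) := by
    obtain ⟨n0, hL0⟩ := hL
    filter_upwards [eventually_ge_atTop n0, eventually_ge_atTop 1] with n hn hn1
    exact ⟨(hL0 n hn).1, (hU n hn1).1⟩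
  have hn2 : ∀ᶠ k in atTop, 2 ≤ φ k := hφ.eventually (eventually_ge_atTop 2)
  have t2 := (pow_tendsto hB hν 2).2
  have t3 := (pow_tendsto hB hν 3).2
  have hgc : ∀ ξ : ℝ, 0 ≤ ξ →
      ∫ y, Real.exp (-ξ * y) ∂(ν : Measure ℝ) ≤
        Real.exp (ξ ^ 2 / 2 * ∫ y, y ^ 2 ∂(ν : Measure ℝ)) ∧
      Real.exp (ξ ^ 2 / 2 * ∫ y, y ^ 2 ∂(ν : Measure ℝ)) ≤
        ∫ y, Real.exp (ξ * y) ∂(ν : Measure ℝ) := by
    intro ξ hξ
    have t4 : Tendsto (fun k => Real.exp (ξ ^ 2 / 2 *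
        ∫ y, y ^ 2 ∂((lawY β ∘ φ) k : Measure ℝ))) atTop
        (𝓝 (Real.exp (ξ ^ 2 / 2 * ∫ y, y ^ 2 ∂(ν : Measure ℝ)))) :=
      (Real.continuous_exp.tendsto _).comp (t2.const_mul _)
    exact ⟨le_of_tendsto_of_tendsto (exp_tendsto hB hν (-ξ)) t4
        (hn2.mono fun k hk => (gc_lawY hG hk hξ).1),
      le_of_tendsto_of_tendsto t4 (exp_tendsto hB hν ξ)
        (hn2.mono fun k hk => (gc_lawY hG hk hξ).2)⟩
  refine ⟨p1, p2, p3, ?_, dens_of hc hLim hV hφ hν, hi, hgc, fun u hu => ?_, p4, p5, p6⟩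
  · refine ge_of_tendsto t3 (hn2.mono fun k hk => ?_)
    simp only [Function.comp]
    rw [cube_lawY]
    exact div_nonneg (hG _ hk).2 (by positivity)
  · exact left_of (hc.trans_le p2) hi (fun ξ hξ => (hgc ξ hξ).1) hu

end Vale.Agent.P146.H509
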