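import Vale.Agent.P146.H509.LawAll
import Vale.Agent.P146.H196.UnionB

/-!
# P146: the inputs of `law_all` which are already known
-/

open MeasureTheory ProbabilityTheory Filter Topology

namespace Vale.Agent.P146.H509

open Vale.Agent.P146

/-- the limit laws of `(F_n - E F_n) / (Var F_n)^(1/2)` have a density -/
theorem limD {β : ℝ} (hβ : 1 < β) : LimD β := by
  intro N hN
  obtain ⟨φ, p, h1, h2, h3, h4, -, -, -, -, -, -, h7⟩ := H196.Un.limit_all hβ hN
  exact ⟨φ, p, h1, h2, h3, h4, h7⟩

/-- comparison with the Gaussian law of the same variance -/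
theorem gC (β : ℝ) : GC β := fun n hn => H762.gauss_compare n (by omega) β

end Vale.Agent.P146.H509
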