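import Vale.Agent.P146.H509.LawSK

/-!
# P146: the limit points of `(F_n - E F_n) / n^(1/6)` have a log-concave density

* `slut`: change of scale along a converging sequence of scales;
* `dens_of`: every limit point of the laws of `(F_n - E F_n) / n^(1/6)` has a bounded log-concave
  density, from the corresponding fact for `(F_n - E F_n) / (Var F_n)^(1/2)`;
* `law_all`: everything known about the limit points, in one statement.
-/

open MeasureTheory ProbabilityTheory Filter Topology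

namespace Vale.Agent.P146.H509

open Vale.Agent.P157.Lv Vale.Agent.P146 Vale.Agent.P146.H425 Vale.Agent.P146.U
open Vale.Agent.P146.H196 (meanF sdF)

/-- change of scale along a converging sequence of scales -/
theorem slut {m : ℕ → ProbabilityMeasure ℝ} {μ : ProbabilityMeasure ℝ} {a : ℕ → ℝ} {a₀ : ℝ}
    (hm : Tendsto m atTop (𝓝 μ)) (ha : Tendsto a atTop (𝓝 a₀))
    (h2 : ∀ᶠ k in atTop, Integrable (fun y => y ^ 2) (m k : Measure ℝ) ∧
      ∫ y, y ^ 2 ∂(m k : Measure ℝ) ≤ 1)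
    {f : ℝ → ℝ} (hf : Continuous f) {C : ℝ} (hC : ∀ x, |f x| ≤ C) :
    Tendsto (fun k => ∫ y, f (a k * y) ∂(m k : Measure ℝ)) atTop
      (𝓝 (∫ y, f (a₀ * y) ∂(μ : Measure ℝ))) := by
  have hC0 : 0 ≤ C := (abs_nonneg _).trans (hC 0)
  have hi : ∀ (b : ℝ) (k : ℕ), Integrable (fun y => f (b * y)) (m k : Measure ℝ) := by
    intro b k
    refine Integrable.of_bound (C := C) (Continuous.aestronglyMeasurable (by fun_prop)) ?_
    exact Eventually.of_forall fun y => by rw [Real.norm_eq_abs]; exact hC _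
  have h1 : Tendsto (fun k => ∫ y, f (a₀ * y) ∂(m k : Measure ℝ)) atTop
      (𝓝 (∫ y, f (a₀ * y) ∂(μ : Measure ℝ))) := by
    have h3 := ProbabilityMeasure.tendsto_iff_forall_integral_tendsto.1 hm
      (BoundedContinuousFunction.ofNormedAddCommGroup (fun y => f (a₀ * y)) (by fun_prop) C
        (fun y => by rw [Real.norm_eq_abs]; exact hC _))
    exact h3
  have h0 : Tendsto (fun k => (∫ y, f (a k * y) ∂(m k : Measure ℝ)) -
      ∫ y, f (a₀ * y) ∂(m k : Measure ℝ)) atTop (𝓝 0) := by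
    rw [Metric.tendsto_nhds]
    intro ε hε
    obtain ⟨R, hR0, hR⟩ : ∃ R : ℝ, 0 < R ∧ 2 * C / R ^ 2 ≤ ε / 4 := by
      refine ⟨√(8 * C / ε) + 1, by positivity, ?_⟩
      have h4 : 0 ≤ √(8 * C / ε) := Real.sqrt_nonneg _
      have h5 : √(8 * C / ε) ^ 2 = 8 * C / ε := Real.sq_sqrt (by positivity)
      have h6 : 8 * C / ε ≤ (√(8 * C / ε) + 1) ^ 2 := by nlinarith
      rw [div_le_iff₀ (by positivity)]
      rw [div_le_iff₀ hε] at h6
      linarith
    obtain ⟨A, hA⟩ : ∃ A : ℝ, A = |a₀| + 1 := ⟨_, rfl⟩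
    have hA1 : 1 ≤ A := by rw [hA]; linarith [abs_nonneg a₀]
    have huc : UniformContinuousOn f (Set.Icc (-(A * R)) (A * R)) :=
      isCompact_Icc.uniformContinuousOn_of_continuous hf.continuousOn
    obtain ⟨δ, hδ, hu⟩ := Metric.uniformContinuousOn_iff.1 huc (ε / 4) (by positivity)
    have hak : ∀ᶠ k in atTop, dist (a k) a₀ < min 1 (δ / R) :=
      Metric.tendsto_nhds.1 ha _ (lt_min one_pos (by positivity))
    filter_upwards [h2, hak] with k hk hk2
    rw [Real.dist_eq, sub_zero]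
    have hd1 : |a k - a₀| < 1 := by
      rw [← Real.dist_eq]
      exact hk2.trans_le (min_le_left _ _)
    have hd2 : |a k - a₀| < δ / R := by
      rw [← Real.dist_eq]
      exact hk2.trans_le (min_le_right _ _)
    have hakA : |a k| ≤ A := by
      have : |a k| ≤ |a k - a₀| + |a₀| := by
        simpa using abs_add_le (a k - a₀) a₀
      rw [hA]
      linarith
    have ha0A : |a₀| ≤ A := by rw [hA]; linarith
    have hpt : ∀ y : ℝ, |f (a k * y) - f (a₀ * y)| ≤ ε / 4 + 2 * C / R ^ 2 * y ^ 2 := by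
      intro y
      rcases le_or_gt |y| R with hy | hy
      · have hm1 : ∀ b : ℝ, |b| ≤ A → b * y ∈ Set.Icc (-(A * R)) (A * R) := by
          intro b hb
          rw [Set.mem_Icc, ← abs_le, abs_mul]
          exact mul_le_mul hb hy (abs_nonneg _) (by linarith)
        have h7 := hu _ (hm1 _ hakA) _ (hm1 _ ha0A) (by
          rw [Real.dist_eq, ← sub_mul, abs_mul]
          calc |a k - a₀| * |y| ≤ |a k - a₀| * R := mul_le_mul_of_nonneg_left hy (abs_nonneg _)
            _ < δ / R * R := mul_lt_mul_of_pos_right hd2 hR0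
            _ = δ := by field_simp)
        rw [Real.dist_eq] at h7
        have : 0 ≤ 2 * C / R ^ 2 * y ^ 2 := by positivity
        linarith
      · have h8 : |f (a k * y) - f (a₀ * y)| ≤ 2 * C := by
          refine (abs_sub _ _).trans ?_
          linarith [hC (a k * y), hC (a₀ * y)]
        have h9 : 1 ≤ y ^ 2 / R ^ 2 := by
          rw [one_le_div (by positivity), ← sq_abs y]
          exact pow_le_pow_left₀ hR0.le hy.le 2
        have h10 : 2 * C ≤ 2 * C / R ^ 2 * y ^ 2 := by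
          calc 2 * C = 2 * C * 1 := (mul_one _).symm
            _ ≤ 2 * C * (y ^ 2 / R ^ 2) := mul_le_mul_of_nonneg_left h9 (by positivity)
            _ = 2 * C / R ^ 2 * y ^ 2 := by ring
        linarith
    rw [← integral_sub (hi _ _) (hi _ _)]
    have hI : Integrable (fun y => ε / 4 + 2 * C / R ^ 2 * y ^ 2) (m k : Measure ℝ) :=
      (integrable_const _).add (hk.1.const_mul _)
    calc |∫ y, (f (a k * y) - f (a₀ * y)) ∂(m k : Measure ℝ)|
        ≤ ∫ y, |f (a k * y) - f (a₀ * y)| ∂(m k : Measure ℝ) := abs_integral_le_integral_abs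
      _ ≤ ∫ y, (ε / 4 + 2 * C / R ^ 2 * y ^ 2) ∂(m k : Measure ℝ) :=
        integral_mono ((hi _ _).sub (hi _ _)).abs hI hpt
      _ = ε / 4 + 2 * C / R ^ 2 * ∫ y, y ^ 2 ∂(m k : Measure ℝ) := by
        rw [integral_add (integrable_const _) (hk.1.const_mul _), integral_const_mul]
        simp
      _ ≤ ε / 4 + ε / 4 * 1 := by
        have h11 : 0 ≤ ∫ y, y ^ 2 ∂(m k : Measure ℝ) := integral_nonneg fun y => sq_nonneg y
        have h12 : 0 ≤ 2 * C / R ^ 2 := by positivity
        gcongr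
        exact hk.2
      _ < ε := by linarith
  have h3 := h0.add h1
  simp only [sub_add_cancel, zero_add] at h3
  exact h3

/-- The fact about the laws of `(F_n - E F_n) / (Var F_n)^(1/2)` which is used. -/
def LimD (β : ℝ) : Prop := ∀ N : ℕ → ℕ, Tendsto N atTop atTop →
  ∃ (φ : ℕ → ℕ) (p : ℝ → ℝ), StrictMono φ ∧ (∀ x, 0 ≤ p x ∧ p x ≤ 145) ∧
    (∀ s t : ℝ, 0 < s → 0 < t → s + t = 1 → ∀ x y : ℝ,
      p x ^ s * p y ^ t ≤ p (s * x + t * y)) ∧
    ∫ x, p x = 1 ∧
    ∀ f : ℝ → ℝ, Continuous f → (∃ C, ∀ x, |f x| ≤ C) →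
      Tendsto (fun k => ∫ g, f ((freeEnergy (N (φ k)) β g - meanF (N (φ k)) β) /
        sdF (N (φ k)) β) ∂(disorder (N (φ k)))) atTop (𝓝 (∫ x, f x * p x))

/-- Comparison with the Gaussian law of the same variance. -/
def GC (β : ℝ) : Prop := ∀ n : ℕ, 2 ≤ n →
  (∀ x : ℝ, 0 ≤ x →
    ∫ g, Real.exp (-(x * (freeEnergy n β g - meanF n β))) ∂(disorder n) ≤
      Real.exp (x ^ 2 / 2 * Var[freeEnergy n β; disorder n]) ∧
    Real.exp (x ^ 2 / 2 * Var[freeEnergy n β; disorder n]) ≤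
      ∫ g, Real.exp (x * (freeEnergy n β g - meanF n β)) ∂(disorder n)) ∧
  0 ≤ ∫ g, (freeEnergy n β g - meanF n β) ^ 3 ∂(disorder n)

/-- the probability measure with the density `p` -/
lemma prob_dens {p : ℝ → ℝ} (h0 : ∀ x, 0 ≤ p x) (h1 : ∫ x, p x = 1) :
    IsProbabilityMeasure (volume.withDensity fun x => ENNReal.ofReal (p x)) := by
  have hpi : Integrable p := by
    by_contra hc
    rw [integral_undef hc] at h1
    norm_num at h1
  refine ⟨?_⟩
  rw [withDensity_apply _ MeasurableSet.univ, Measure.restrict_univ,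
    ← ofReal_integral_eq_lintegral_ofReal hpi (Eventually.of_forall h0), h1, ENNReal.ofReal_one]

lemma int_dens {p : ℝ → ℝ} (h0 : ∀ x, 0 ≤ p x) (hpi : Integrable p) (f : ℝ → ℝ) :
    ∫ x, f x ∂(volume.withDensity fun x => ENNReal.ofReal (p x)) = ∫ x, f x * p x := by
  rw [integral_withDensity_eq_integral_toReal_smul₀ hpi.1.aemeasurable.ennreal_ofReal
    (Eventually.of_forall fun x => ENNReal.ofReal_lt_top)]
  refine integral_congr_ae (Eventually.of_forall fun x => ?_)
  simp only [smul_eq_mul]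
  rw [ENNReal.toReal_ofReal (h0 x), mul_comm]

variable {β : ℝ}

/-- the law of `(F_n - E F_n) / (Var F_n)^(1/2)` -/
noncomputable def lawS (β : ℝ) (n : ℕ) : ProbabilityMeasure ℝ :=
  ⟨(disorder n).map (fun g => (freeEnergy n β g - meanF n β) / sdF n β),
    Measure.isProbabilityMeasure_map
      (((eg_F n β).sub_const _).div_const _).aemeasurable⟩

lemma int_lawS {n : ℕ} {f : ℝ → ℝ} (hf : Continuous f) :
    ∫ y, f y ∂(lawS β n : Measure ℝ) =
      ∫ g, f ((freeEnergy n β g - meanF n β) / sdF n β) ∂(disorder n) :=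
  integral_map (((eg_F n β).sub_const _).div_const _).aemeasurable hf.aestronglyMeasurable

lemma int_F2 (n : ℕ) (β : ℝ) :
    Integrable (fun g => (freeEnergy n β g - meanF n β) ^ 2) (disorder n) := by
  have h1 := (int_exp_F n β 1).add (int_exp_F n β (-1))
  refine (h1.const_mul 2).mono' (((eg_F n β).sub_const _).pow_const 2).aestronglyMeasurable
    (Eventually.of_forall fun g => ?_)
  simp only [Pi.add_apply]
  rw [Real.norm_eq_abs, abs_of_nonneg (sq_nonneg _)]
  obtain ⟨u, hu⟩ : ∃ u, u = freeEnergy n β g - meanF n β := ⟨_, rfl⟩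
  rw [← hu]
  have h2 := Real.quadratic_le_exp_of_nonneg (abs_nonneg u)
  have h3 : Real.exp |u| ≤ Real.exp (1 * u) + Real.exp (-1 * u) := by
    rcases abs_cases u with ⟨h, -⟩ | ⟨h, -⟩
    · rw [h, one_mul]
      linarith [Real.exp_pos (-1 * u)]
    · rw [h, neg_one_mul]
      linarith [Real.exp_pos (1 * u)]
  rw [sq_abs] at h2
  nlinarith [abs_nonneg u]

lemma sq_lawS {n : ℕ} (hV : 0 < Var[freeEnergy n β; disorder n]) :
    Integrable (fun y => y ^ 2) (lawS β n : Measure ℝ) ∧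
      ∫ y, y ^ 2 ∂(lawS β n : Measure ℝ) ≤ 1 := by
  have hc : Continuous fun y : ℝ => y ^ 2 := by fun_prop
  have hs : sdF n β ^ 2 = Var[freeEnergy n β; disorder n] := Real.sq_sqrt hV.le
  refine ⟨?_, ?_⟩
  · refine (integrable_map_measure hc.aestronglyMeasurable
      (((eg_F n β).sub_const _).div_const _).aemeasurable).2 ?_
    refine ((int_F2 n β).div_const (sdF n β ^ 2)).congr (Eventually.of_forall fun g => ?_)
    simp only [Function.comp, div_pow]
  · rw [int_lawS hc]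
    simp only [div_pow]
    rw [integral_div, hs, div_le_one hV, variance_eq_integral (eg_F n β).aemeasurable]
    exact le_of_eq rfl

/-- **Density of the limit points.** -/
theorem dens_of {c D : ℝ} (hc : 0 < c) (hLim : LimD β)
    (hV : ∀ᶠ n : ℕ in atTop, c * (n : ℝ) ^ (1 / 3 : ℝ) ≤ Var[freeEnergy n β; disorder n] ∧
      Var[freeEnergy n β; disorder n] ≤ D * (n : ℝ) ^ (1 / 3 : ℝ))
    {φ : ℕ → ℕ} (hφ : Tendsto φ atTop atTop) {ν : ProbabilityMeasure ℝ}
    (hν : Tendsto (lawY β ∘ φ) atTop (𝓝 ν)) :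
    ∃ p : ℝ → ℝ, (∀ x, 0 ≤ p x ∧ p x ≤ 145 / √c) ∧
      (∀ s t : ℝ, 0 < s → 0 < t → s + t = 1 → ∀ x y : ℝ,
        p x ^ s * p y ^ t ≤ p (s * x + t * y)) ∧
      (ν : Measure ℝ) = volume.withDensity fun x => ENNReal.ofReal (p x) := by
  obtain ⟨φ1, p1, hφ1, hp, hlc, hp1, hconv⟩ := hLim φ hφ
  have hpi : Integrable p1 := by
    by_contra hcc
    rw [integral_undef hcc] at hp1
    norm_num at hp1
  have hφφ : Tendsto (fun k => φ (φ1 k)) atTop atTop := hφ.comp hφ1.tendsto_atTop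
  -- the scales
  obtain ⟨a, ha⟩ : ∃ a : ℕ → ℝ, a = fun k => sdF (φ (φ1 k)) β / ((φ (φ1 k) : ℕ) : ℝ) ^ (1 / 6 : ℝ) :=
    ⟨_, rfl⟩
  have hsc : ∀ᶠ k in atTop, a k ∈ Set.Icc (√c) (√D) ∧
      0 < Var[freeEnergy (φ (φ1 k)) β; disorder (φ (φ1 k))] ∧ 1 ≤ φ (φ1 k) := by
    filter_upwards [hφφ.eventually hV, hφφ.eventually (eventually_ge_atTop 1)] with k hk hk1
    obtain ⟨n, hn⟩ : ∃ n, n = φ (φ1 k) := ⟨_, rfl⟩
    rw [ha]
    simp only
    rw [← hn] at hk hk1 ⊢
    have hn0 : (0 : ℝ) < n := by exact_mod_cast hk1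
    have hp0 : 0 < (n : ℝ) ^ (1 / 3 : ℝ) := Real.rpow_pos_of_pos hn0 _
    have hp6 : 0 < (n : ℝ) ^ (1 / 6 : ℝ) := Real.rpow_pos_of_pos hn0 _
    have e2 : √((n : ℝ) ^ (1 / 3 : ℝ)) = (n : ℝ) ^ (1 / 6 : ℝ) := by
      rw [Real.sqrt_eq_rpow, ← Real.rpow_mul hn0.le]
      norm_num
    refine ⟨⟨?_, ?_⟩, lt_of_lt_of_le (by positivity) hk.1, hk1⟩
    · rw [le_div_iff₀ hp6, ← e2, ← Real.sqrt_mul hc.le]
      exact Real.sqrt_le_sqrt hk.1
    · rw [div_le_iff₀ hp6, ← e2, ← Real.sqrt_mul' _ hp0.le]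
      exact Real.sqrt_le_sqrt hk.2
  obtain ⟨σ, hσ, ψ, hψ, hψa⟩ := isCompact_Icc.tendsto_subseq' (hsc.mono fun k hk => hk.1).frequently
  have hσ0 : 0 < σ := (Real.sqrt_pos.2 hc).trans_le hσ.1
  -- the weak limit of the normalised laws
  obtain ⟨μ, hμ⟩ : ∃ μ : ProbabilityMeasure ℝ,
      (μ : Measure ℝ) = volume.withDensity fun x => ENNReal.ofReal (p1 x) :=
    ⟨⟨_, prob_dens (fun x => (hp x).1) hp1⟩, rfl⟩
  have hm : Tendsto (fun k => lawS β (φ (φ1 (ψ k)))) atTop (𝓝 μ) := by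
    rw [ProbabilityMeasure.tendsto_iff_forall_integral_tendsto]
    intro f
    have h1 := (hconv f f.continuous ⟨‖f‖, fun x => by
      rw [← Real.norm_eq_abs]
      exact f.norm_coe_le_norm x⟩).comp hψ.tendsto_atTop
    rw [hμ, int_dens (fun x => (hp x).1) hpi]
    refine h1.congr fun k => ?_
    rw [int_lawS f.continuous]
    rfl
  obtain ⟨p, hpd⟩ : ∃ p : ℝ → ℝ, p = fun x => p1 (x / σ) / σ := ⟨_, rfl⟩
  have hp0 : ∀ x, 0 ≤ p x := fun x => by
    rw [hpd]
    exact div_nonneg (hp _).1 hσ0.le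
  have hpint : Integrable p := by
    rw [hpd]
    exact (hpi.comp_div hσ0.ne').div_const _
  have hcv : ∀ f : ℝ → ℝ, ∫ x, f x * p x = ∫ x, f (σ * x) * p1 x := by
    intro f
    have h1 := Measure.integral_comp_mul_left (fun x => f x * p x) σ
    rw [hpd] at h1
    simp only at h1
    rw [abs_of_pos (inv_pos.2 hσ0), smul_eq_mul] at h1
    rw [hpd]
    simp only
    have h2 : ∫ x, f (σ * x) * (p1 (σ * x / σ) / σ) = σ⁻¹ * ∫ x, f (σ * x) * p1 x := by
      rw [← integral_const_mul]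
      refine integral_congr_ae (Eventually.of_forall fun x => ?_)
      simp only
      rw [mul_div_cancel_left₀ _ hσ0.ne']
      ring
    rw [h2] at h1
    exact (mul_left_cancel₀ (inv_ne_zero hσ0.ne') h1).symm
  have hp1' : ∫ x, p x = 1 := by
    have h1 := hcv fun _ => 1
    simp only [one_mul] at h1
    rw [h1, hp1]
  refine ⟨p, fun x => ⟨hp0 x, ?_⟩, fun s t hs ht hst x y => ?_, ?_⟩
  · rw [hpd]
    simp only
    exact div_le_div₀ (by norm_num) (hp _).2 (Real.sqrt_pos.2 hc) hσ.1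
  · rw [hpd]
    simp only
    rw [Real.div_rpow (hp _).1 hσ0.le, Real.div_rpow (hp _).1 hσ0.le, div_mul_div_comm,
      ← Real.rpow_add hσ0, hst, Real.rpow_one]
    refine div_le_div_of_nonneg_right ?_ hσ0.le
    have e : (s * x + t * y) / σ = s * (x / σ) + t * (y / σ) := by ring
    rw [e]
    exact hlc s t hs ht hst _ _
  · have := prob_dens hp0 hp1'
    refine ext_of_forall_integral_eq_of_IsFiniteMeasure fun f => ?_
    rw [int_dens hp0 hpint, hcv]
    have h1 : Tendsto (fun k => ∫ y, f y ∂(lawY β (φ (φ1 (ψ k))) : Measure ℝ)) atTop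
        (𝓝 (∫ y, f y ∂(ν : Measure ℝ))) :=
      ((ProbabilityMeasure.tendsto_iff_forall_integral_tendsto.1 hν f).comp
        hφ1.tendsto_atTop).comp hψ.tendsto_atTop
    have h2 := slut (f := f) (C := ‖f‖) hm hψa
      ((hψ.tendsto_atTop.eventually hsc).mono fun k hk => sq_lawS hk.2.1) f.continuous
      (fun x => by
        rw [← Real.norm_eq_abs]
        exact f.norm_coe_le_norm x)
    rw [hμ, int_dens (fun x => (hp x).1) hpi fun y => f (σ * y)] at h2
    refine tendsto_nhds_unique (h1.congr' ?_) h2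
    filter_upwards [hψ.tendsto_atTop.eventually hsc] with k hk
    rw [int_lawY f.continuous, int_lawS (f := fun y => f ((a ∘ ψ) k * y)) (by
      exact f.continuous.comp (continuous_const.mul continuous_id))]
    refine integral_congr_ae (Eventually.of_forall fun g => ?_)
    simp only [Function.comp]
    have hs0 : 0 < sdF (φ (φ1 (ψ k))) β := Real.sqrt_pos.2 hk.2.1
    rw [ha]
    simp only
    unfold Yn
    congr 1
    field_simp

end Vale.Agent.P146.H509
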