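import Vale.Agent.P146.H509.Law3
import Vale.Agent.P146.U.AP

/-!
# P146: the limit points of `(F_n - E F_n) / n^(1/6)`

From two-sided bounds of the exponential moments of the free energy of the SK model.
-/

open MeasureTheory ProbabilityTheory Filter Topology

namespace Vale.Agent.P146.H509

open Vale.Agent.P157.Lv Vale.Agent.P146 Vale.Agent.P146.H425 Vale.Agent.P146.U
open Vale.Agent.P146.H196 (meanF)

variable {n : ℕ} {β : ℝ}

/-- the rescaled free energy -/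
noncomputable def Yn (n : ℕ) (β : ℝ) (g : Pair n → ℝ) : ℝ :=
  (freeEnergy n β g - meanF n β) / (n : ℝ) ^ (1 / 6 : ℝ)

lemma eg_F (n : ℕ) (β : ℝ) : Measurable (freeEnergy n β) := by
  have h := (AP.lip_Fsk n β).eg.meas
  rwa [AP.Fsk_eq] at h

lemma meas_Yn (n : ℕ) (β : ℝ) : Measurable (Yn n β) :=
  ((eg_F n β).sub_const _).div_const _

instance prob_disorder (n : ℕ) : IsProbabilityMeasure (disorder n) := by
  unfold disorder
  infer_instance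

/-- **The law of the rescaled free energy.** -/
noncomputable def lawY (β : ℝ) (n : ℕ) : ProbabilityMeasure ℝ :=
  ⟨(disorder n).map (Yn n β), Measure.isProbabilityMeasure_map (meas_Yn n β).aemeasurable⟩

lemma int_lawY {f : ℝ → ℝ} (hf : Continuous f) :
    ∫ y, f y ∂(lawY β n : Measure ℝ) = ∫ g, f (Yn n β g) ∂(disorder n) :=
  integral_map (meas_Yn n β).aemeasurable hf.aestronglyMeasurable

lemma integrable_lawY {f : ℝ → ℝ} (hf : Continuous f)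
    (h : Integrable (fun g => f (Yn n β g)) (disorder n)) :
    Integrable f (lawY β n : Measure ℝ) :=
  (integrable_map_measure hf.aestronglyMeasurable (meas_Yn n β).aemeasurable).2 h

lemma int_exp_F (n : ℕ) (β x : ℝ) :
    Integrable (fun g => Real.exp (x * (freeEnergy n β g - meanF n β))) (disorder n) := by
  have h1 : Integrable (fun g => Real.exp (x * Fsk n β g)) (gI (Pair n)) :=
    ((AP.lip_Fsk n β).exp_eg x).integrable
  rw [AP.Fsk_eq] at h1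
  have h2 : Integrable (fun g => Real.exp (x * freeEnergy n β g)) (disorder n) := h1
  refine (h2.const_mul (Real.exp (-(x * meanF n β)))).congr (Eventually.of_forall fun g => ?_)
  simp only
  rw [← Real.exp_add]
  congr 1
  ring

lemma int_F (n : ℕ) (β : ℝ) : Integrable (freeEnergy n β) (disorder n) := by
  have h1 : Integrable (Fsk n β) (gI (Pair n)) := (AP.lip_Fsk n β).eg.integrable
  rwa [AP.Fsk_eq] at h1

/-- change of variables -/
lemma exp_lawY (hn : 1 ≤ n) (ξ : ℝ) :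
    Integrable (fun y => Real.exp (ξ * y)) (lawY β n : Measure ℝ) ∧
    ∫ y, Real.exp (ξ * y) ∂(lawY β n : Measure ℝ) =
      ∫ g, Real.exp (ξ * (n : ℝ) ^ (-(1 / 6) : ℝ) * (freeEnergy n β g - meanF n β))
        ∂(disorder n) := by
  have hn0 : (0 : ℝ) < n := by exact_mod_cast hn
  have hc : Continuous fun y : ℝ => Real.exp (ξ * y) := by fun_prop
  have e : ∀ g, Real.exp (ξ * Yn n β g) =
      Real.exp (ξ * (n : ℝ) ^ (-(1 / 6) : ℝ) * (freeEnergy n β g - meanF n β)) := by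
    intro g
    unfold Yn
    rw [Real.rpow_neg hn0.le]
    congr 1
    ring
  refine ⟨integrable_lawY hc ?_, ?_⟩
  · simp only [e]
    exact int_exp_F n β _
  · rw [int_lawY hc]
    simp only [e]

lemma mean_lawY : ∫ y, y ∂(lawY β n : Measure ℝ) = 0 := by
  rw [int_lawY (f := fun y => y) continuous_id]
  unfold Yn
  rw [integral_div, integral_sub (int_F n β) (integrable_const _)]
  simp [meanF]

lemma var_lawY (hn : 1 ≤ n) : ∫ y, y ^ 2 ∂(lawY β n : Measure ℝ) =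
    Var[freeEnergy n β; disorder n] / (n : ℝ) ^ (1 / 3 : ℝ) := by
  have hn0 : (0 : ℝ) < n := by exact_mod_cast hn
  rw [int_lawY (f := fun y => y ^ 2) (by fun_prop)]
  unfold Yn
  have e2 : ((n : ℝ) ^ (1 / 6 : ℝ)) ^ 2 = (n : ℝ) ^ (1 / 3 : ℝ) := by
    rw [← Real.rpow_natCast, ← Real.rpow_mul hn0.le]
    norm_num
  simp only [div_pow, e2]
  rw [integral_div, variance_eq_integral (eg_F n β).aemeasurable]
  rfl

/-- the upper bounds at all scales -/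
def MgU (β D : ℝ) : Prop :=
  ∀ n : ℕ, 1 ≤ n → Var[freeEnergy n β; disorder n] ≤ D * (n : ℝ) ^ (1 / 3 : ℝ) ∧
    (∀ x : ℝ, x ≤ (n : ℝ) ^ (-(1 / 6) : ℝ) →
      ∫ g, Real.exp (x * (freeEnergy n β g - meanF n β)) ∂(disorder n) ≤
        Real.exp (D * ((n : ℝ) ^ (1 / 3 : ℝ) * x ^ 2))) ∧
    ∀ x : ℝ, (n : ℝ) ^ (-(1 / 6) : ℝ) ≤ x → x ≤ 1 →
      ∫ g, Real.exp (x * (freeEnergy n β g - meanF n β)) ∂(disorder n) ≤
        Real.exp (D * (n * x ^ 6))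

/-- the lower bounds above the scale `K n^(-1/6)` -/
def MgL (β c K : ℝ) : Prop :=
  ∃ n0 : ℕ, ∀ n : ℕ, n0 ≤ n → c * (n : ℝ) ^ (1 / 3 : ℝ) ≤ Var[freeEnergy n β; disorder n] ∧
    ∀ x : ℝ, K * (n : ℝ) ^ (-(1 / 6) : ℝ) ≤ x → x ≤ (n : ℝ) ^ (-(1 / 10) : ℝ) →
      Real.exp (c * (n * x ^ 6)) ≤
        ∫ g, Real.exp (x * (freeEnergy n β g - meanF n β)) ∂(disorder n)

/-- a fixed multiple of `n^(-1/6)` is small -/
lemma ev_small {ξ : ℝ} : ∀ᶠ n : ℕ in atTop,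
    ξ * (n : ℝ) ^ (-(1 / 6) : ℝ) ≤ (n : ℝ) ^ (-(1 / 10) : ℝ) := by
  have h1 : Tendsto (fun n : ℕ => (n : ℝ) ^ (1 / 15 : ℝ)) atTop atTop :=
    (tendsto_rpow_atTop (by norm_num)).comp tendsto_natCast_atTop_atTop
  filter_upwards [h1.eventually_ge_atTop ξ, eventually_ge_atTop 1] with n hn hn1
  have hn0 : (0 : ℝ) < n := by exact_mod_cast hn1
  calc ξ * (n : ℝ) ^ (-(1 / 6) : ℝ) ≤ (n : ℝ) ^ (1 / 15 : ℝ) * (n : ℝ) ^ (-(1 / 6) : ℝ) :=
        mul_le_mul_of_nonneg_right hn (Real.rpow_nonneg hn0.le _)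
    _ = (n : ℝ) ^ (-(1 / 10) : ℝ) := by
        rw [← Real.rpow_add hn0]
        norm_num

lemma scale_six (hn : 1 ≤ n) (ξ : ℝ) : (n : ℝ) * (ξ * (n : ℝ) ^ (-(1 / 6) : ℝ)) ^ 6 = ξ ^ 6 := by
  have hn0 : (0 : ℝ) < n := by exact_mod_cast hn
  have e : ((n : ℝ) ^ (-(1 / 6) : ℝ)) ^ 6 = (n : ℝ)⁻¹ := by
    rw [← Real.rpow_natCast, ← Real.rpow_mul hn0.le, ← Real.rpow_neg_one]
    norm_num
  rw [mul_pow, e]
  field_simp

lemma scale_two (hn : 1 ≤ n) (ξ : ℝ) :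
    (n : ℝ) ^ (1 / 3 : ℝ) * (ξ * (n : ℝ) ^ (-(1 / 6) : ℝ)) ^ 2 = ξ ^ 2 := by
  have hn0 : (0 : ℝ) < n := by exact_mod_cast hn
  have e : (n : ℝ) ^ (1 / 3 : ℝ) * ((n : ℝ) ^ (-(1 / 6) : ℝ)) ^ 2 = 1 := by
    rw [← Real.rpow_natCast, ← Real.rpow_mul hn0.le, ← Real.rpow_add hn0]
    norm_num
  rw [mul_pow, mul_left_comm, e, mul_one]

/-- **The sequence of laws.** -/
theorem seqSix {D c K : ℝ} (hD : 0 < D) (hU : MgU β D) (hL : MgL β c K) :
    SeqSix c D c D (max K 1) (fun ξ => Real.exp (D * (ξ ^ 2 + ξ ^ 6))) (lawY β) := by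
  obtain ⟨n0, hL⟩ := hL
  refine ⟨fun ξ => ?_, Eventually.of_forall fun n => mean_lawY, ?_, fun ξ hξ => ?_, fun ξ hξ => ?_⟩
  · filter_upwards [eventually_ge_atTop 1, ev_small (ξ := ξ)] with n hn hs
    have hnR : (1 : ℝ) ≤ n := by exact_mod_cast hn
    have hn0 : (0 : ℝ) < n := by linarith
    obtain ⟨h1, h2⟩ := exp_lawY (β := β) hn ξ
    refine ⟨h1, ?_⟩
    rw [h2]
    obtain ⟨-, hu1, hu2⟩ := hU n hn
    have hp : 0 < (n : ℝ) ^ (-(1 / 6) : ℝ) := Real.rpow_pos_of_pos hn0 _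
    rcases le_total ξ 1 with hle | hge
    · refine (hu1 _ (by nlinarith)).trans (Real.exp_le_exp.2 ?_)
      rw [scale_two hn]
      have : 0 ≤ D * ξ ^ 6 := by positivity
      linarith
    · refine (hu2 _ (by nlinarith) (hs.trans ?_)).trans (Real.exp_le_exp.2 ?_)
      · exact Real.rpow_le_one_of_one_le_of_nonpos hnR (by norm_num)
      · rw [scale_six hn]
        have : 0 ≤ D * ξ ^ 2 := by positivity
        linarith
  · filter_upwards [eventually_ge_atTop n0, eventually_ge_atTop 1] with n hn hn1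
    have hn0 : (0 : ℝ) < n := by exact_mod_cast hn1
    have hp : 0 < (n : ℝ) ^ (1 / 3 : ℝ) := Real.rpow_pos_of_pos hn0 _
    rw [var_lawY hn1, le_div_iff₀ hp, div_le_iff₀ hp]
    exact ⟨(hL n hn).1, (hU n hn1).1⟩
  · filter_upwards [eventually_ge_atTop n0, eventually_ge_atTop 1, ev_small (ξ := ξ)] with n hn hn1 hs
    have hn0 : (0 : ℝ) < n := by exact_mod_cast hn1
    have hp : 0 < (n : ℝ) ^ (-(1 / 6) : ℝ) := Real.rpow_pos_of_pos hn0 _
    rw [(exp_lawY (β := β) hn1 ξ).2]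
    have h1 := (hL n hn).2 (ξ * (n : ℝ) ^ (-(1 / 6) : ℝ))
      (mul_le_mul_of_nonneg_right ((le_max_left _ _).trans hξ) hp.le) hs
    rwa [scale_six hn1] at h1
  · filter_upwards [eventually_ge_atTop 1, ev_small (ξ := ξ)] with n hn1 hs
    have hnR : (1 : ℝ) ≤ n := by exact_mod_cast hn1
    have hn0 : (0 : ℝ) < n := by linarith
    have hp : 0 < (n : ℝ) ^ (-(1 / 6) : ℝ) := Real.rpow_pos_of_pos hn0 _
    rw [(exp_lawY (β := β) hn1 ξ).2]
    have hξ1 : 1 ≤ ξ := (le_max_right _ _).trans hξ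
    have h1 := (hU n hn1).2.2 (ξ * (n : ℝ) ^ (-(1 / 6) : ℝ)) (by nlinarith)
      (hs.trans (Real.rpow_le_one_of_one_le_of_nonpos hnR (by norm_num)))
    rwa [scale_six hn1] at h1

/-- **The limit laws of the free energy.** -/
theorem law_final {D c K : ℝ} (hD : 0 < D) (hc : 0 < c) (hU : MgU β D) (hL : MgL β c K) :
    (∀ φ : ℕ → ℕ, StrictMono φ → ∃ ψ : ℕ → ℕ, StrictMono ψ ∧ ∃ ν : ProbabilityMeasure ℝ,
      Tendsto (lawY β ∘ φ ∘ ψ) atTop (𝓝 ν)) ∧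
    ∃ c' C' t₀ : ℝ, 0 < c' ∧ 0 < C' ∧ 0 < t₀ ∧
      ∀ φ : ℕ → ℕ, Tendsto φ atTop atTop → ∀ ν : ProbabilityMeasure ℝ,
        Tendsto (lawY β ∘ φ) atTop (𝓝 ν) →
        ∫ y, y ∂(ν : Measure ℝ) = 0 ∧ c ≤ ∫ y, y ^ 2 ∂(ν : Measure ℝ) ∧
        ∫ y, y ^ 2 ∂(ν : Measure ℝ) ≤ D ∧
        (∀ ξ : ℝ, max K 1 ≤ ξ →
          Real.exp (c * ξ ^ 6) ≤ ∫ y, Real.exp (ξ * y) ∂(ν : Measure ℝ) ∧
          ∫ y, Real.exp (ξ * y) ∂(ν : Measure ℝ) ≤ Real.exp (D * ξ ^ 6)) ∧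
        (∀ t : ℝ, t₀ ≤ t → Real.exp (-(C' * t ^ (6 / 5 : ℝ))) ≤ (ν : Measure ℝ).real (Set.Ici t) ∧
          (ν : Measure ℝ).real (Set.Ici t) ≤ Real.exp (-(c' * t ^ (6 / 5 : ℝ)))) ∧
        ∀ (a : ℝ) (w : NNReal), (ν : Measure ℝ) ≠ gaussianReal a w :=
  (seqSix hD hU hL).main hc hD

end Vale.Agent.P146.H509
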